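import Vale.Agent.P181Z.Near4
import Vale.Agent.P181.H900.All
import Vale.Agent.P181.H35.Twenty

set_option autoImplicit false

open Vale.Agent.P181 Vale.Agent.P181.H280 Vale.Agent.P181.H421 Vale.Agent.P181Z

universe u

namespace Vale.Agent.Results.P181.AFoulkesBelowSquare

/-- **Foulkes' conjecture below the square of `a - 1`.**
(1) For all `a`, `b` with `b ≥ (a - 1) ^ 2 - ⌊(a - 3) / 2⌋`, and for `a = 6`, `b ≥ 6`: for
every finite-dimensional complex vector space `V` there is an injective linear map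
`Sym^a(Sym^b V) → Sym^b(Sym^a V)` which commutes with the maps induced by all linear maps `V → V`,
and for all `n` and all `λ` the multiplicity of `S_λ(ℂ^n)` in `Sym^a(Sym^b ℂ^n)` is at most its
multiplicity in `Sym^b(Sym^a ℂ^n)`.
(2) If `b ≥ (a - 1) ^ 2`, or `a` is odd and `b ≥ (a - 1) ^ 2 - 1`, or `a = 5`, `b ≥ 14`, or `a = 6`,
`b ≥ 20`, then for every finite-dimensional complex `V` the canonical map
`Sym^a(Sym^b V) → Sym^b(Sym^a V)` is injective and the canonical map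
`Sym^b(Sym^a V) → Sym^a(Sym^b V)` is surjective.
(3) If `b + c = (a - 1) ^ 2` with `1 ≤ c ≤ a - 2`, the canonical map for `V = ℂ^a` is injective on
the highest weight vectors of every weight `λ` which has an entry less than
`b - (a - 1)(2 c - 2)`. -/
theorem result :
    (∀ a b : ℕ, ((a - 1) ^ 2 ≤ b + (a - 3) / 2 ∨ (a = 6 ∧ 6 ≤ b)) →
      H530.FoulkesInjection.{u} a b ∧
        ∀ (n : ℕ) (lam : Fin n → ℕ), plethMult a b n lam ≤ plethMult b a n lam) ∧
    (∀ a b : ℕ, ((a - 1) ^ 2 ≤ b ∨ (Odd a ∧ (a - 1) ^ 2 ≤ b + 1) ∨ (a = 5 ∧ 14 ≤ b) ∨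
        (a = 6 ∧ 20 ≤ b)) → CanonicalInjective.{u} a b ∧ CanonicalSurjective.{u} b a) ∧
    ∀ a b c : ℕ, b + c = (a - 1) ^ 2 → 1 ≤ c → c + 2 ≤ a →
      ∃ Ψ : Pleth a b a →ₗ[ℂ] Pleth b a a,
        (∀ v : Fin a → Fin b → (Fin a → ℂ), Ψ (prodRows v) = sumCols v) ∧ IsEquivariant Ψ ∧
        ∀ lam : Fin a → ℕ, (∃ i, lam i + (a - 1) * (2 * c - 2) < b) → InjOnHW Ψ lam := by
  refine ⟨fun a b h => ?_, fun a b h => ?_, fun a b c hbc hc hca => ?_⟩
  · rcases h with h | ⟨rfl, hb⟩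
    · exact foulkes_near h
    · have hB : ∀ b, 20 ≤ b → ∀ lam : Fin 6 → ℕ, Antitone lam → ∑ i, lam i = 6 * b →
          H558.Fo b lam := fun b hb lam _ _ => H35.fo_twenty b hb lam
      have H : ∀ b, 7 ≤ b → b < 20 → ∀ lam : Fin 6 → ℕ, H558.Need b lam → H558.Fo b lam :=
        fun b h7 h20 _ h => H900.need_all b h7 h20 h
      exact ⟨H558.six_inj 20 hB H b hb, H558.six_all 20 hB H b hb⟩
  · refine canonical_of_noKer (fun ι L => ?_)
    rcases h with h | ⟨h1, h2⟩ | ⟨rfl, h⟩ | ⟨rfl, h⟩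
    · exact core2 (hasRoots_of_forall_field L) a b h
    · exact noKer_sq_odd L h1 h2
    · exact H35.noKer_five (hasRoots_of_forall_field L) h
    · exact H35.noKer_six (hasRoots_of_forall_field L) h
  · obtain ⟨n, rfl⟩ : ∃ n, a = n + 2 := ⟨a - 2, by omega⟩
    refine ⟨foulkesHowe (n + 2) b (Fin (n + 2) → ℂ), foulkesHowe_tprod (n + 2) b,
      fun g x => LinearMap.congr_fun (foulkesHowe_equivariant (n + 2) b (Matrix.toLin' g)) x,
      fun lam hlam x hx h0 => ?_⟩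
    obtain ⟨i, hi⟩ := hlam
    exact inj_low hbc hc (by omega) lam i hi x hx h0

end Vale.Agent.Results.P181.AFoulkesBelowSquare
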